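import Mathlib

/-!
# Arithmetic of the component step

From `t ! ≤ (n ^ m * q ^ e) ^ t` one gets `t ≤ exp 1 * n ^ m * q ^ e`, and for `m ≥ 2`,
`e ≥ m - 1`, `D ≥ 1` the count `m ^ 2 * t * D ^ (m - 1)` is at most `n ^ m * (11 D q) ^ e`.
-/

namespace Vale.Agent.Lib.P064.BD

/-- `t ! ≤ X ^ t` forces `t ≤ exp 1 * X`. -/
theorem bd_t_le (t : ℕ) (X : ℝ) (hX : 0 ≤ X) (ht : (t.factorial : ℝ) ≤ X ^ t) :
    (t : ℝ) ≤ Real.exp 1 * X := by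
  rcases Nat.eq_zero_or_pos t with h0 | hpos
  · subst h0
    simp only [Nat.cast_zero]
    positivity
  · have h1 := Real.pow_div_factorial_le_exp (t : ℝ) (Nat.cast_nonneg t) t
    have hfac : (0 : ℝ) < (t.factorial : ℝ) := by exact_mod_cast Nat.factorial_pos t
    rw [div_le_iff₀ hfac] at h1
    have h2 : Real.exp (t : ℝ) = Real.exp 1 ^ t := by
      rw [← Real.exp_nat_mul, mul_one]
    have h3 : (t : ℝ) ^ t ≤ (Real.exp 1 * X) ^ t := by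
      calc (t : ℝ) ^ t ≤ Real.exp (t : ℝ) * (t.factorial : ℝ) := h1
        _ ≤ Real.exp (t : ℝ) * X ^ t := mul_le_mul_of_nonneg_left ht (Real.exp_pos _).le
        _ = (Real.exp 1 * X) ^ t := by rw [h2, mul_pow]
    exact (pow_le_pow_iff_left₀ (Nat.cast_nonneg t) (by positivity) hpos.ne').1 h3

/-- `272 m^2 ≤ 100 * 11^(m-1)` for `m ≥ 2`. -/
theorem bd_poly_le (m : ℕ) (hm : 2 ≤ m) : 272 * m ^ 2 ≤ 100 * 11 ^ (m - 1) := by
  induction m, hm using Nat.le_induction with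
  | base => norm_num
  | succ m hm ih =>
    have h1 : m + 1 - 1 = (m - 1) + 1 := by omega
    rw [h1, pow_succ 11 (m - 1)]
    have h2 : (m + 1) ^ 2 ≤ 11 * m ^ 2 := by nlinarith
    calc 272 * (m + 1) ^ 2 ≤ 272 * (11 * m ^ 2) := Nat.mul_le_mul_left _ h2
      _ = 11 * (272 * m ^ 2) := by ring
      _ ≤ 11 * (100 * 11 ^ (m - 1)) := Nat.mul_le_mul_left _ ih
      _ = 100 * (11 ^ (m - 1) * 11) := by ring

theorem bd_arith (n m e t D : ℕ) (q : ℝ) (hq0 : 0 < q) (hm : 2 ≤ m) (he : m - 1 ≤ e)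
    (hD : 1 ≤ D) (ht : (t.factorial : ℝ) ≤ ((n : ℝ) ^ m * q ^ e) ^ t) :
    ((m ^ 2 * t * D ^ (m - 1) : ℕ) : ℝ) ≤ (n : ℝ) ^ m * (11 * D * q) ^ e := by
  have hX : 0 ≤ (n : ℝ) ^ m * q ^ e := by positivity
  have hDR : (1 : ℝ) ≤ D := by exact_mod_cast hD
  have h1 := bd_t_le t _ hX ht
  have hexp : Real.exp 1 < 2.7182818286 := Real.exp_one_lt_d9
  have hexp0 : (0 : ℝ) < Real.exp 1 := Real.exp_pos 1
  have hpoly : (272 : ℝ) * (m : ℝ) ^ 2 ≤ 100 * 11 ^ (m - 1) := by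
    exact_mod_cast bd_poly_le m hm
  have h2 : Real.exp 1 * (m : ℝ) ^ 2 ≤ 11 ^ (m - 1) := by
    have hm2 : (0 : ℝ) ≤ (m : ℝ) ^ 2 := by positivity
    nlinarith
  have h3 : (11 * (D : ℝ)) ^ (m - 1) ≤ (11 * (D : ℝ)) ^ e :=
    pow_le_pow_right₀ (by linarith) he
  have hDpow : (0 : ℝ) ≤ (D : ℝ) ^ (m - 1) := by positivity
  push_cast
  calc (m : ℝ) ^ 2 * (t : ℝ) * (D : ℝ) ^ (m - 1)
      ≤ (m : ℝ) ^ 2 * (Real.exp 1 * ((n : ℝ) ^ m * q ^ e)) * (D : ℝ) ^ (m - 1) := by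
        apply mul_le_mul_of_nonneg_right _ hDpow
        exact mul_le_mul_of_nonneg_left h1 (by positivity)
    _ = (Real.exp 1 * (m : ℝ) ^ 2) * ((D : ℝ) ^ (m - 1) * ((n : ℝ) ^ m * q ^ e)) := by ring
    _ ≤ 11 ^ (m - 1) * ((D : ℝ) ^ (m - 1) * ((n : ℝ) ^ m * q ^ e)) :=
        mul_le_mul_of_nonneg_right h2 (by positivity)
    _ = (11 * (D : ℝ)) ^ (m - 1) * ((n : ℝ) ^ m * q ^ e) := by
        rw [mul_pow]
        ring
    _ ≤ (11 * (D : ℝ)) ^ e * ((n : ℝ) ^ m * q ^ e) :=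
        mul_le_mul_of_nonneg_right h3 hX
    _ = (n : ℝ) ^ m * (11 * D * q) ^ e := by
        rw [mul_pow (11 * (D : ℝ)) q e]
        ring

end Vale.Agent.Lib.P064.BD
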