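import Vale.Agent.Lib.P064.bd.Step
import Vale.Agent.Lib.P064.ls.Labelled

/-!
# Hosts of bounded degree: the labelled copy-count inequality without a logarithm

If every vertex of the host `H` has at most `D` neighbours and every subgraph of `H` has expected
count at least one at density `q`, then every pattern `F` has at most
`n ^ |V(F)| * (11 D q) ^ e(F)` labelled copies in `H`. The pattern is exhausted one connected
piece at a time: a closed vertex set (no pattern edge leaves it) is enlarged to a minimal closed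
set strictly above it, and the step is the component step of the preceding file.
-/

namespace Vale.Agent.Lib.P064.BD

open Finset SimpleGraph Vale.Agent.KK Vale.Agent.KK.LS Vale.Agent.Lib.P064.LS

variable {W : Type*} [Fintype W] [DecidableEq W]

/-- No edge of the pattern leaves `S`. -/
def Closed (F : SimpleGraph W) (S : Finset W) : Prop := ∀ y z, F.Adj y z → y ∈ S → z ∈ S

omit [Fintype W] in
theorem att_eq_empty_of_closed (F : SimpleGraph W) (S T : Finset W) (hS : Closed F S) :
    att F S T = ∅ := by
  refine Finset.eq_empty_of_forall_notMem (fun y hy => ?_)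
  obtain ⟨hyS, z, hz, hadj⟩ := ls5_mem_att.1 hy
  exact (Finset.mem_sdiff.1 hz).2 (hS y z hadj hyS)

/-- The chain over closed sets. -/
theorem bd_chain {n : ℕ} (H : SimpleGraph (Fin n)) (F : SimpleGraph W) {q : ℝ}
    (hq0 : 0 < q) (h : SubgraphsExpected n H q) (D : ℕ) (hD1 : 1 ≤ D)
    (hD : ∀ v, (H.neighborSet v).ncard ≤ D) :
    ∀ (k : ℕ) (S : Finset W), (univ \ S).card = k → Closed F S → ∀ ψ : W → Fin n,
      ((Ext F H S univ ψ).card : ℝ) ≤ wt n (11 * D * q) F S univ := by
  classical
  have hr0 : (0 : ℝ) < 11 * D * q := by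
    have : (1 : ℝ) ≤ D := by exact_mod_cast hD1
    positivity
  intro k
  induction k using Nat.strong_induction_on with
  | _ k ih =>
    intro S hk hS ψ
    by_cases hSu : S = univ
    · subst hSu
      rw [wt_self]
      exact_mod_cast Ext_self_card F H univ ψ
    · -- a minimal closed set strictly above `S`
      have hSss : S ⊂ univ := Finset.ssubset_iff_subset_ne.2 ⟨Finset.subset_univ S, hSu⟩
      have hne : ((univ : Finset W).powerset.filter (fun T => S ⊂ T ∧ Closed F T)).Nonempty := by
        refine ⟨univ, ?_⟩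
        rw [Finset.mem_filter, Finset.mem_powerset]
        exact ⟨Finset.Subset.refl _, hSss, fun y z _ _ => Finset.mem_univ z⟩
      obtain ⟨T, hT, hmin⟩ := Finset.exists_min_image _ Finset.card hne
      rw [Finset.mem_filter] at hT
      obtain ⟨-, hST, hTc⟩ := hT
      have hatt : att F S T = ∅ := att_eq_empty_of_closed F S T hS
      have hconn : ∀ X, S ⊂ X → X ⊂ T → ∃ z ∈ T \ X, ∃ y ∈ X \ S, F.Adj y z := by
        intro X hSX hXT
        have hXnc : ¬ Closed F X := by
          intro hXc
          have hmem : X ∈ (univ : Finset W).powerset.filter (fun T => S ⊂ T ∧ Closed F T) := by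
            rw [Finset.mem_filter, Finset.mem_powerset]
            exact ⟨Finset.subset_univ X, hSX, hXc⟩
          have h1 := hmin X hmem
          have h2 := Finset.card_lt_card hXT
          omega
        unfold Closed at hXnc
        simp only [not_forall] at hXnc
        obtain ⟨y, z, hadj, hyX, hzX⟩ := hXnc
        have hzT : z ∈ T := hTc y z hadj (hXT.1 hyX)
        have hyS : y ∉ S := fun hyS => hzX (hSX.1 (hS y z hadj hyS))
        exact ⟨z, Finset.mem_sdiff.2 ⟨hzT, hzX⟩, y, Finset.mem_sdiff.2 ⟨hyX, hyS⟩, hadj⟩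
      have hstep := bd_step H F hq0 h D hD1 hD S T hST hatt hconn ψ
      have hlt : (univ \ T).card < k := by
        rw [← hk]
        apply Finset.card_lt_card
        refine Finset.ssubset_iff_subset_ne.2 ⟨Finset.sdiff_subset_sdiff (Finset.Subset.refl _) hST.1, ?_⟩
        intro heq
        obtain ⟨x, hxT, hxS⟩ := Finset.exists_of_ssubset hST
        have hx : x ∈ univ \ S := Finset.mem_sdiff.2 ⟨Finset.mem_univ x, hxS⟩
        rw [← heq] at hx
        exact (Finset.mem_sdiff.1 hx).2 hxT
      have hIH : ∀ φ : W → Fin n, ((Ext F H T univ φ).card : ℝ) ≤ wt n (11 * D * q) F T univ :=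
        fun φ => ih _ hlt T rfl hTc φ
      have hsplit := Ext_split_card F H hST.1 (Finset.subset_univ T) ψ _ hIH
      have hwt := wt_mul n (11 * D * q) F hST.1 (Finset.subset_univ T)
      have hn0 : 0 ≤ wt n (11 * D * q) F T univ := by
        unfold wt
        positivity
      rw [hwt]
      exact le_trans hsplit (mul_le_mul_of_nonneg_right hstep hn0)

/-- The labelled copy-count inequality for hosts of bounded degree, with a plain power of `n`. -/
theorem bd_labelled_pow {n : ℕ} (H : SimpleGraph (Fin n)) {q : ℝ}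
    (hq0 : 0 < q) (h : SubgraphsExpected n H q) (D : ℕ) (hD1 : 1 ≤ D)
    (hD : ∀ v, (H.neighborSet v).ncard ≤ D)
    (W : Type) [Fintype W] [DecidableEq W] (F : SimpleGraph W) :
    (H.labelledCopyCount F : ℝ) ≤
      (n : ℝ) ^ Fintype.card W * (11 * D * q) ^ F.edgeSet.ncard := by
  classical
  have hr0 : (0 : ℝ) < 11 * D * q := by
    have : (1 : ℝ) ≤ D := by exact_mod_cast hD1
    positivity
  rw [labelledCopyCount_eq_natCard]
  by_cases hne : Nonempty (Copy F H)
  swap
  · rw [not_nonempty_iff] at hne
    rw [Nat.card_of_isEmpty]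
    simp only [Nat.cast_zero]
    positivity
  obtain ⟨f0⟩ := hne
  have h1 := ls10_card_copy_le H F (⇑f0)
  have h4 := bd_chain H F hq0 h D hD1 hD _ ∅ rfl (fun y z _ hy => absurd hy (Finset.notMem_empty y))
    (⇑f0)
  unfold wt at h4
  rw [Finset.sdiff_empty, Finset.card_univ, ls10_card_extEdges_univ] at h4
  calc (Nat.card (Copy F H) : ℝ) ≤ ((Ext F H ∅ univ (⇑f0)).card : ℝ) := by exact_mod_cast h1
    _ ≤ (n : ℝ) ^ Fintype.card W * (11 * D * q) ^ F.edgeSet.ncard := h4

/-- The labelled inequality with a falling factorial, for patterns without isolated vertices. -/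
theorem bd_main {n : ℕ} (H : SimpleGraph (Fin n)) {q : ℝ}
    (hq0 : 0 < q) (h : SubgraphsExpected n H q) (D : ℕ) (hD1 : 1 ≤ D)
    (hD : ∀ v, (H.neighborSet v).ncard ≤ D)
    (W : Type) [Fintype W] (F : SimpleGraph W) (hiso : ∀ w, ∃ w', F.Adj w w') :
    (H.labelledCopyCount F : ℝ) ≤
      (n.descFactorial (Fintype.card W) : ℝ) * (83 * D * q) ^ F.edgeSet.ncard := by
  classical
  have hDR : (1 : ℝ) ≤ D := by exact_mod_cast hD1
  have hDq : 0 ≤ (D : ℝ) * q := by positivity
  by_cases hw : Fintype.card W ≤ n
  swap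
  · rw [labelled_eq_zero_of_card_lt H F (not_le.1 hw)]
    simp only [Nat.cast_zero]
    positivity
  have hcard2 := card_le_two_mul_edges F hiso
  have hconv := pow_le_exp_pow_mul_descFactorial n (Fintype.card W) hw
  have hexp1 : 1 ≤ Real.exp 1 := Real.one_le_exp (by norm_num)
  have hD0 : (0 : ℝ) ≤ (n.descFactorial (Fintype.card W) : ℝ) := Nat.cast_nonneg _
  have hexp2 : Real.exp 1 ^ 2 ≤ 7.5 := by
    have h1 : Real.exp 1 < 2.7182818286 := Real.exp_one_lt_d9
    have h0 : (0 : ℝ) < Real.exp 1 := Real.exp_pos 1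
    have h2 : Real.exp 1 ^ 2 < 2.7182818286 ^ 2 := by gcongr
    norm_num at h2 ⊢
    linarith
  have hp := bd_labelled_pow H hq0 h D hD1 hD W F
  have h11 : 0 ≤ 11 * (D : ℝ) * q := by positivity
  set e := F.edgeSet.ncard with he
  calc (H.labelledCopyCount F : ℝ)
      ≤ (n : ℝ) ^ Fintype.card W * (11 * D * q) ^ e := hp
    _ ≤ (Real.exp 1 ^ (Fintype.card W) * (n.descFactorial (Fintype.card W) : ℝ)) *
          (11 * D * q) ^ e := by
        gcongr
    _ ≤ (Real.exp 1 ^ (2 * e) * (n.descFactorial (Fintype.card W) : ℝ)) *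
          (11 * D * q) ^ e := by
        gcongr
    _ = (n.descFactorial (Fintype.card W) : ℝ) *
          (Real.exp 1 ^ 2 * (11 * D * q)) ^ e := by
        rw [pow_mul, mul_pow]
        ring
    _ ≤ (n.descFactorial (Fintype.card W) : ℝ) * (83 * D * q) ^ e := by
        have hb : Real.exp 1 ^ 2 * (11 * D * q) ≤ 83 * D * q := by
          nlinarith [mul_nonneg (sub_nonneg.2 hexp2) hDq]
        have hb0 : 0 ≤ Real.exp 1 ^ 2 * (11 * D * q) := by positivity
        exact mul_le_mul_of_nonneg_left (pow_le_pow_left₀ hb0 hb e) hD0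

/-- The labelled inequality for patterns on the vertex set of the host, density capped at one. -/
theorem bd_labelled_desc {n : ℕ} (H : SimpleGraph (Fin n)) {q : ℝ}
    (hq0 : 0 < q) (h : SubgraphsExpected n H q) (D : ℕ) (hD1 : 1 ≤ D)
    (hD : ∀ v, (H.neighborSet v).ncard ≤ D) (F : SimpleGraph (Fin n)) :
    (H.labelledCopyCount F : ℝ) ≤
      (n.factorial : ℝ) * (min 1 (83 * D * q)) ^ F.edgeSet.ncard := by
  classical
  by_cases hq : 83 * (D : ℝ) * q ≤ 1
  · rw [min_eq_right hq]
    have key := labelled_of_support H F ((83 * (D : ℝ) * q) ^ F.edgeSet.ncard) ?_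
    · rw [Fintype.card_fin, Nat.descFactorial_self] at key
      exact key
    rw [Fintype.card_fin, ← ncard_edgeSet_induce_support F]
    exact bd_main H hq0 h D hD1 hD F.support (F.induce F.support)
      (induce_support_no_isolated F)
  · rw [not_le] at hq
    rw [min_eq_left hq.le, one_pow, mul_one]
    have h1 := labelled_le_top H F
    rw [labelledCopyCount_top, Fintype.card_fin, Nat.descFactorial_self] at h1
    exact_mod_cast h1

end Vale.Agent.Lib.P064.BD
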