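import Vale.Agent.Lib.P064.bd.Chain
import Vale.Agent.KK.LS.Main

/-!
# The threshold of a graph of maximum degree at most `D`

For every graph `H` on `n ≥ 2` vertices in which every vertex has at most `D ≥ 1` neighbours,
`p_c(n,H) ≤ 12000 * D * p_E(n,H) * log n`.
-/

namespace Vale.Agent.Lib.P064.BD

open SimpleGraph Finset
open Vale.Agent.KK Vale.Agent.KK.PP Vale.Agent.KK.PF Vale.Agent.KK.RG Vale.Agent.Lib.P064
open Vale.Agent.Lib.P064.LS Vale.Agent.KK.LS

/-- The labelled copy-count inequality with `L = 83 D`, for an admissible positive density. -/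
theorem bd_hlab {n : ℕ} (H : SimpleGraph (Fin n)) (D : ℕ) (hD1 : 1 ≤ D)
    (hD : ∀ v, (H.neighborSet v).ncard ≤ D) (p : ℝ) (hp0 : 0 < p)
    (hp : ∀ H' : H.Subgraph, (1 : ℝ) / 2 ≤
      ((⊤ : SimpleGraph (Fin n)).copyCount H'.coe : ℝ) * p ^ H'.edgeSet.ncard)
    (F : SimpleGraph (Fin n)) :
    (H.labelledCopyCount F : ℝ) ≤
      (n.factorial : ℝ) * (min 1 (83 * D * (2 * p))) ^ F.edgeSet.ncard := by
  have hyp : SubgraphsExpected n H (2 * p) := subgraphsExpected_two_mul H p hp0.le hp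
  exact bd_labelled_desc H (by positivity) hyp D hD1 hD F

/-- **The threshold of a graph of bounded degree.** For every graph `H` on `n ≥ 2` vertices all
of whose degrees are at most `D ≥ 1`, `p_c(n,H) ≤ 12000 * D * p_E(n,H) * log n`. -/
theorem degree_threshold_le {n : ℕ} (hn : 2 ≤ n) (H : SimpleGraph (Fin n)) (D : ℕ)
    (hD1 : 1 ≤ D) (hD : ∀ v, (H.neighborSet v).ncard ≤ D) :
    sInf {p : ℝ | 0 ≤ p ∧ p ≤ 1 ∧ (1 : ℝ) / 2 ≤ ∑ G : SimpleGraph (Fin n),
        Set.indicator {G | H.IsContained G}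
          (fun G => p ^ G.edgeSet.ncard * (1 - p) ^ (n.choose 2 - G.edgeSet.ncard)) G} ≤
      12000 * D * sInf {p : ℝ | 0 ≤ p ∧ p ≤ 1 ∧ ∀ H' : H.Subgraph,
          (1 : ℝ) / 2 ≤
            ((⊤ : SimpleGraph (Fin n)).copyCount H'.coe : ℝ) * p ^ H'.edgeSet.ncard} *
        Real.log n := by
  classical
  have hls := log_sq_threshold_le hn H
  set Sc : Set ℝ := {p : ℝ | 0 ≤ p ∧ p ≤ 1 ∧ (1 : ℝ) / 2 ≤ ∑ G : SimpleGraph (Fin n),
        Set.indicator {G | H.IsContained G}
          (fun G => p ^ G.edgeSet.ncard * (1 - p) ^ (n.choose 2 - G.edgeSet.ncard)) G} with hSc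
  set SE : Set ℝ := {p : ℝ | 0 ≤ p ∧ p ≤ 1 ∧ ∀ H' : H.Subgraph,
        (1 : ℝ) / 2 ≤
          ((⊤ : SimpleGraph (Fin n)).copyCount H'.coe : ℝ) * p ^ H'.edgeSet.ncard} with hSE
  have hl2 : (0.6931471803 : ℝ) < Real.log 2 := Real.log_two_gt_d9
  have hnR : (2 : ℝ) ≤ n := by exact_mod_cast hn
  have hlogn : Real.log 2 ≤ Real.log n := Real.log_le_log (by norm_num) hnR
  have hlogpos : 0 < Real.log n := by linarith
  have hDR : (1 : ℝ) ≤ D := by exact_mod_cast hD1
  have hbddc : BddBelow Sc := ⟨0, fun p hp => hp.1⟩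
  have hneE : SE.Nonempty := by
    refine ⟨1, zero_le_one, le_rfl, fun H' => ?_⟩
    have h1 : (1 : ℝ) ≤ ((⊤ : SimpleGraph (Fin n)).copyCount H'.coe : ℝ) := by
      exact_mod_cast one_le_copyCount_top_coe H'
    rw [one_pow, mul_one]
    linarith
  have hsE0 : 0 ≤ sInf SE := le_csInf hneE (fun p hp => hp.1)
  have hkey : ∀ p ∈ SE, sInf Sc ≤ 11537 * D * p * Real.log n := by
    intro p hp
    rcases hp.1.eq_or_lt with h0 | hpos
    · -- the density zero is admissible only if the expectation threshold vanishes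
      have hsE : sInf SE ≤ 0 := by
        have := csInf_le (⟨0, fun x hx => hx.1⟩ : BddBelow SE) hp
        rw [← h0] at this
        exact this
      have hz : sInf SE = 0 := le_antisymm hsE hsE0
      rw [hz] at hls
      rw [← h0]
      simp only [mul_zero, zero_mul] at hls ⊢
      exact hls
    · have hL1 : (1 : ℝ) ≤ 83 * D := by linarith
      obtain ⟨p', hp'0, hp'1, hp'c, hp'le⟩ :=
        contain_of_labelled hn H (83 * D) hL1 p hp.1 hp.2.2 (bd_hlab H D hD1 hD p hpos hp.2.2)
      have hmem : p' ∈ Sc := ⟨hp'0, hp'1, hp'c⟩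
      refine le_trans (csInf_le hbddc hmem) (le_trans hp'le ?_)
      have e : 139 * (83 * (D : ℝ)) * p * Real.log n = 11537 * D * p * Real.log n := by ring
      rw [e]
  have hC : (0 : ℝ) < 11537 * D * Real.log n := by positivity
  have hmain : sInf Sc ≤ 11537 * D * sInf SE * Real.log n := by
    apply le_of_forall_pos_le_add
    intro ε hε
    set η : ℝ := ε / (11537 * D * Real.log n) with hη
    have hη0 : 0 < η := div_pos hε hC
    obtain ⟨p, hpSE, hplt⟩ := exists_lt_of_csInf_lt hneE (by linarith : sInf SE < sInf SE + η)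
    have h1 := hkey p hpSE
    have h3 : 11537 * D * Real.log n * η = ε := by
      rw [hη]; field_simp
    calc sInf Sc ≤ 11537 * D * p * Real.log n := h1
      _ ≤ 11537 * D * (sInf SE + η) * Real.log n := by
          have : 11537 * (D : ℝ) * p ≤ 11537 * D * (sInf SE + η) :=
            mul_le_mul_of_nonneg_left hplt.le (by positivity)
          exact mul_le_mul_of_nonneg_right this hlogpos.le
      _ = 11537 * D * sInf SE * Real.log n + 11537 * D * Real.log n * η := by ring
      _ = 11537 * D * sInf SE * Real.log n + ε := by rw [h3]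
  refine le_trans hmain ?_
  have h5 : 0 ≤ (D : ℝ) * sInf SE * Real.log n := by positivity
  nlinarith

end Vale.Agent.Lib.P064.BD
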