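import Vale.Agent.Lib.P064.ls.Basic

/-!
# The rooted count in a host of bounded degree

If every vertex of the host has at most `D` neighbours and the new part `T \ X` can be exhausted
by adding, one at a time, a vertex joined to a vertex already reached (a cut condition), then
an embedding of `X` has at most `D ^ |T \ X|` extensions to `T`.
-/

namespace Vale.Agent.Lib.P064.BD

open Finset SimpleGraph Vale.Agent.KK Vale.Agent.KK.LS Vale.Agent.Lib.P064.LS

variable {W : Type*} [Fintype W] [DecidableEq W]

theorem rooted_count {n : ℕ} (H : SimpleGraph (Fin n)) (F : SimpleGraph W) (D : ℕ)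
    (hD : ∀ v, (H.neighborSet v).ncard ≤ D) (S T : Finset W)
    (hconn : ∀ X, S ⊂ X → X ⊂ T → ∃ z ∈ T \ X, ∃ y ∈ X \ S, F.Adj y z)
    (X : Finset W) (hSX : S ⊂ X) (hXT : X ⊆ T) (ψ : W → Fin n) :
    (Ext F H X T ψ).card ≤ D ^ (T \ X).card := by
  classical
  have key : ∀ (k : ℕ) (X : Finset W), (T \ X).card = k → S ⊂ X → X ⊆ T → ∀ ψ : W → Fin n,
      (Ext F H X T ψ).card ≤ D ^ k := by
    intro k
    induction k with
    | zero =>
      intro X hk _ hXT ψ
      have hTX : T ⊆ X := by
        rw [← Finset.sdiff_eq_empty_iff_subset]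
        exact Finset.card_eq_zero.1 hk
      have hXeq : X = T := Finset.Subset.antisymm hXT hTX
      subst hXeq
      rw [pow_zero]
      exact Ext_self_card F H X ψ
    | succ k ih =>
      intro X hk hSX hXT ψ
      have hXne : X ≠ T := by
        intro hXeq
        rw [hXeq, Finset.sdiff_self, Finset.card_empty] at hk
        omega
      have hXT' : X ⊂ T := Finset.ssubset_iff_subset_ne.2 ⟨hXT, hXne⟩
      obtain ⟨z, hz, y, hy, hadj⟩ := hconn X hSX hXT'
      have hzT : z ∈ T := (Finset.mem_sdiff.1 hz).1
      have hzX : z ∉ X := (Finset.mem_sdiff.1 hz).2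
      have hyX : y ∈ X := (Finset.mem_sdiff.1 hy).1
      have hsub : insert z X ⊆ T := Finset.insert_subset hzT hXT
      have hss : S ⊂ insert z X := lt_of_lt_of_le hSX (Finset.subset_insert z X)
      have hcard : (T \ insert z X).card = k := by
        have : T \ insert z X = (T \ X).erase z := by
          ext w
          simp only [Finset.mem_sdiff, Finset.mem_insert, Finset.mem_erase]
          tauto
        rw [this, Finset.card_erase_of_mem hz, hk]
        rfl
      obtain ⟨N, hN⟩ : ∃ N : Finset (Fin n), N = (Set.toFinite (H.neighborSet (ψ y))).toFinset :=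
        ⟨_, rfl⟩
      have hNcard : N.card ≤ D := by
        rw [hN, ← Set.ncard_eq_toFinset_card]
        exact hD (ψ y)
      have hcover : Ext F H X T ψ ⊆
          N.biUnion (fun v => Ext F H (insert z X) T (Function.update ψ z v)) := by
        intro φ hφ
        have hφ' := (mem_Ext F H X T ψ φ).1 hφ
        have hy' : y ∉ T \ X := fun hh => (Finset.mem_sdiff.1 hh).2 hyX
        have e1 : φ y = ψ y := hφ'.1 y hy'
        have hadjH : H.Adj (φ y) (φ z) := hφ'.2.2 y z hadj (hXT hyX) hzT (Or.inr hzX)
        rw [Finset.mem_biUnion]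
        refine ⟨φ z, ?_, Ext_update F H hφ hz⟩
        rw [hN, Set.Finite.mem_toFinset, SimpleGraph.mem_neighborSet, ← e1]
        exact hadjH
      have h1 := Finset.card_biUnion_le_card_mul N
        (fun v => Ext F H (insert z X) T (Function.update ψ z v)) (D ^ k)
        (fun v _ => ih (insert z X) hcard hss hsub (Function.update ψ z v))
      calc (Ext F H X T ψ).card ≤ _ := Finset.card_le_card hcover
        _ ≤ N.card * D ^ k := h1
        _ ≤ D * D ^ k := Nat.mul_le_mul_right _ hNcard
        _ = D ^ (k + 1) := by ring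
  exact key _ X rfl hSX hXT ψ

end Vale.Agent.Lib.P064.BD
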