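import Vale.Agent.Lib.P064.bd.SunflowerClosed
import Vale.Agent.Lib.P064.bd.Rooted
import Vale.Agent.Lib.P064.bd.Arith
import Vale.Agent.Lib.P064.ls.StepCount

/-!
# The component step for hosts of bounded degree

`S ⊂ T` are vertex sets of the pattern such that no vertex of `S` is joined to `T \ S` and the
new part `T \ S` is connected (in the form of a cut condition). Then the number of extensions
from `S` to `T` is at most `n ^ m * (11 D q) ^ e`, where `m = |T \ S|`, `e` is the number of
edges of the new part and `D` bounds the degrees of the host.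
-/

namespace Vale.Agent.Lib.P064.BD

open Finset SimpleGraph Vale.Agent.KK Vale.Agent.KK.LS Vale.Agent.Lib.P064.LS

variable {W : Type*} [Fintype W] [DecidableEq W]

/-- Counting extensions through a maximal family with pairwise disjoint new parts. -/
theorem bd_step_count {n : ℕ} (H : SimpleGraph (Fin n)) (F : SimpleGraph W) {q : ℝ}
    (hq0 : 0 ≤ q) (h : SubgraphsExpected n H q) (D : ℕ)
    (hD : ∀ v, (H.neighborSet v).ncard ≤ D)
    (S T : Finset W) (hST : S ⊂ T) (hatt : att F S T = ∅)
    (hconn : ∀ X, S ⊂ X → X ⊂ T → ∃ z ∈ T \ X, ∃ y ∈ X \ S, F.Adj y z) (ψ : W → Fin n) :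
    ∃ t : ℕ, (t.factorial : ℝ) ≤ (wt n q F S T) ^ t ∧
      (Ext F H S T ψ).card ≤ (T \ S).card ^ 2 * t * D ^ ((T \ S).card - 1) := by
  classical
  obtain ⟨M, hMsub, hMD, hmeet⟩ := ls6_meets H F S T hST ψ
  refine ⟨M.card, ?_, ?_⟩
  · exact sunflower_bound_closed H F hq0 h S T hST.1 hatt ψ M hMsub hMD
  · have hpiece : ∀ (x : W), x ∈ T \ S → ∀ (v : Fin n),
        (Ext F H (insert x S) T (Function.update ψ x v)).card
          ≤ D ^ ((T \ S).card - 1) := by
      intro x hx v
      have hxT : x ∈ T := (Finset.mem_sdiff.1 hx).1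
      have hxS : x ∉ S := (Finset.mem_sdiff.1 hx).2
      have hsub : insert x S ⊆ T := Finset.insert_subset hxT hST.1
      have hss : S ⊂ insert x S := Finset.ssubset_insert hxS
      have hc := rooted_count H F D hD S T hconn (insert x S) hss hsub (Function.update ψ x v)
      have hcard : (T \ insert x S).card = (T \ S).card - 1 := by
        have : T \ insert x S = (T \ S).erase x := by
          ext w
          simp only [Finset.mem_sdiff, Finset.mem_insert, Finset.mem_erase]
          tauto
        rw [this, Finset.card_erase_of_mem hx]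
      rw [hcard] at hc
      exact hc
    have hcover : Ext F H S T ψ ⊆ M.biUnion (fun φ' => (T \ S).biUnion (fun x' =>
        (T \ S).biUnion (fun x => Ext F H (insert x S) T (Function.update ψ x (φ' x'))))) := by
      intro φ hφ
      obtain ⟨φ', hφ', x', hx', x, hx, hxx⟩ := hmeet φ hφ
      rw [Finset.mem_biUnion]
      refine ⟨φ', hφ', ?_⟩
      rw [Finset.mem_biUnion]
      refine ⟨x', hx', ?_⟩
      rw [Finset.mem_biUnion]
      refine ⟨x, hx, ?_⟩
      have := Ext_update F H hφ hx
      rw [hxx] at this
      exact this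
    have h1 : ∀ φ' ∈ M, ∀ x' ∈ T \ S,
        ((T \ S).biUnion (fun x => Ext F H (insert x S) T (Function.update ψ x (φ' x')))).card
          ≤ (T \ S).card * D ^ ((T \ S).card - 1) := by
      intro φ' _ x' _
      exact Finset.card_biUnion_le_card_mul _ _ _ (fun x hx => hpiece x hx (φ' x'))
    have h2 : ∀ φ' ∈ M,
        ((T \ S).biUnion (fun x' =>
          (T \ S).biUnion (fun x => Ext F H (insert x S) T (Function.update ψ x (φ' x'))))).card
          ≤ (T \ S).card * ((T \ S).card * D ^ ((T \ S).card - 1)) := by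
      intro φ' hφ'
      exact Finset.card_biUnion_le_card_mul _ _ _ (fun x' hx' => h1 φ' hφ' x' hx')
    have h3 := Finset.card_biUnion_le_card_mul M _ _ h2
    calc (Ext F H S T ψ).card ≤ _ := Finset.card_le_card hcover
      _ ≤ M.card * ((T \ S).card * ((T \ S).card * D ^ ((T \ S).card - 1))) := h3
      _ = (T \ S).card ^ 2 * M.card * D ^ ((T \ S).card - 1) := by ring

/-- Under the cut condition, the part outside `X` has at least as many extension edges as
vertices. -/
theorem bd_edges_ge (F : SimpleGraph W) (S T : Finset W)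
    (hconn : ∀ X, S ⊂ X → X ⊂ T → ∃ z ∈ T \ X, ∃ y ∈ X \ S, F.Adj y z) :
    ∀ (k : ℕ) (X : Finset W), (T \ X).card = k → S ⊂ X → X ⊆ T →
      (T \ X).card ≤ (extEdges F X T).card := by
  intro k
  induction k with
  | zero =>
    intro X hk _ _
    rw [hk]
    exact Nat.zero_le _
  | succ k ih =>
    intro X hk hSX hXT
    have hXne : X ≠ T := by
      intro hXeq
      rw [hXeq, Finset.sdiff_self, Finset.card_empty] at hk
      omega
    have hXT' : X ⊂ T := Finset.ssubset_iff_subset_ne.2 ⟨hXT, hXne⟩
    obtain ⟨z, hz, y, hy, hadj⟩ := hconn X hSX hXT'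
    have hzT : z ∈ T := (Finset.mem_sdiff.1 hz).1
    have hzX : z ∉ X := (Finset.mem_sdiff.1 hz).2
    have hyX : y ∈ X := (Finset.mem_sdiff.1 hy).1
    have hsub : insert z X ⊆ T := Finset.insert_subset hzT hXT
    have hss : S ⊂ insert z X := lt_of_lt_of_le hSX (Finset.subset_insert z X)
    have hcard : (T \ insert z X).card = k := by
      have : T \ insert z X = (T \ X).erase z := by
        ext w
        simp only [Finset.mem_sdiff, Finset.mem_insert, Finset.mem_erase]
        tauto
      rw [this, Finset.card_erase_of_mem hz, hk]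
      rfl
    have h1 := ih (insert z X) hcard hss hsub
    have h2 := extEdges_card_add F (Finset.subset_insert z X) hsub
    have h3 : 1 ≤ (extEdges F X (insert z X)).card := by
      rw [Finset.one_le_card]
      refine ⟨s(y, z), ?_⟩
      rw [mem_extEdges]
      exact ⟨hadj, Finset.mem_insert_of_mem hyX, Finset.mem_insert_self z X, Or.inr hzX⟩
    rw [hcard] at h1
    rw [hk, h2]
    omega

/-- The new part has at least `m - 1` edges. -/
theorem bd_edges_ge' (F : SimpleGraph W) (S T : Finset W) (hST : S ⊂ T)
    (hconn : ∀ X, S ⊂ X → X ⊂ T → ∃ z ∈ T \ X, ∃ y ∈ X \ S, F.Adj y z) :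
    (T \ S).card - 1 ≤ (extEdges F S T).card := by
  obtain ⟨x, hx⟩ : (T \ S).Nonempty := by
    rw [Finset.nonempty_iff_ne_empty]
    intro h0
    rw [Finset.sdiff_eq_empty_iff_subset] at h0
    exact hST.2 h0
  have hxT : x ∈ T := (Finset.mem_sdiff.1 hx).1
  have hxS : x ∉ S := (Finset.mem_sdiff.1 hx).2
  have hsub : insert x S ⊆ T := Finset.insert_subset hxT hST.1
  have hss : S ⊂ insert x S := Finset.ssubset_insert hxS
  have hcard : (T \ insert x S).card = (T \ S).card - 1 := by
    have : T \ insert x S = (T \ S).erase x := by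
      ext w
      simp only [Finset.mem_sdiff, Finset.mem_insert, Finset.mem_erase]
      tauto
    rw [this, Finset.card_erase_of_mem hx]
  have h1 := bd_edges_ge F S T hconn _ (insert x S) rfl hss hsub
  have h2 := extEdges_card_add F (Finset.subset_insert x S) hsub
  rw [hcard] at h1
  omega

/-- **The component step.** -/
theorem bd_step {n : ℕ} (H : SimpleGraph (Fin n)) (F : SimpleGraph W) {q : ℝ}
    (hq0 : 0 < q) (h : SubgraphsExpected n H q) (D : ℕ) (hD1 : 1 ≤ D)
    (hD : ∀ v, (H.neighborSet v).ncard ≤ D)
    (S T : Finset W) (hST : S ⊂ T) (hatt : att F S T = ∅)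
    (hconn : ∀ X, S ⊂ X → X ⊂ T → ∃ z ∈ T \ X, ∃ y ∈ X \ S, F.Adj y z) (ψ : W → Fin n) :
    ((Ext F H S T ψ).card : ℝ) ≤ wt n (11 * D * q) F S T := by
  classical
  have hmpos : 1 ≤ (T \ S).card := by
    rw [Finset.one_le_card, Finset.nonempty_iff_ne_empty]
    intro h0
    rw [Finset.sdiff_eq_empty_iff_subset] at h0
    exact hST.2 h0
  rcases Nat.lt_or_ge (T \ S).card 2 with hm | hm
  · -- a single new vertex, which is isolated from `S`
    have hm1 : (T \ S).card = 1 := by omega
    have hE : extEdges F S T = ∅ := by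
      refine Finset.eq_empty_of_forall_notMem (fun e => ?_)
      induction e using Sym2.ind with
      | _ x y =>
        rw [mem_extEdges]
        rintro ⟨hadj, hxT, hyT, hor⟩
        obtain ⟨w, hw⟩ := Finset.card_eq_one.1 hm1
        have key : ∀ a b : W, F.Adj a b → a ∈ T → b ∈ T → a ∉ S → False := by
          intro a b hab haT hbT haS
          have ha : a ∈ T \ S := Finset.mem_sdiff.2 ⟨haT, haS⟩
          have haw : a = w := by
            rw [hw] at ha
            exact Finset.mem_singleton.1 ha
          have hbS : b ∈ S := by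
            by_contra hbS
            have hb : b ∈ T \ S := Finset.mem_sdiff.2 ⟨hbT, hbS⟩
            rw [hw] at hb
            have hbw : b = w := Finset.mem_singleton.1 hb
            exact hab.ne (haw.trans hbw.symm)
          have hmem : b ∈ att F S T := ls5_mem_att.2 ⟨hbS, a, ha, hab.symm⟩
          rw [hatt] at hmem
          exact Finset.notMem_empty b hmem
        rcases hor with hx | hy
        · exact key x y hadj hxT hyT hx
        · exact key y x hadj.symm hyT hxT hy
    have h1 := Ext_card_le_pow F H S T ψ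
    rw [Fintype.card_fin, hm1, pow_one] at h1
    unfold wt
    rw [hE, hm1, Finset.card_empty, pow_zero, mul_one, pow_one]
    exact_mod_cast h1
  · obtain ⟨t, ht1, ht2⟩ := bd_step_count H F hq0.le h D hD S T hST hatt hconn ψ
    have he := bd_edges_ge' F S T hST hconn
    unfold wt at ht1
    have key := bd_arith n (T \ S).card (extEdges F S T).card t D q hq0 hm he hD1 ht1
    unfold wt
    calc ((Ext F H S T ψ).card : ℝ)
        ≤ (((T \ S).card ^ 2 * t * D ^ ((T \ S).card - 1) : ℕ) : ℝ) := by exact_mod_cast ht2
      _ ≤ (n : ℝ) ^ (T \ S).card * (11 * D * q) ^ (extEdges F S T).card := key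

end Vale.Agent.Lib.P064.BD
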